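import Crest.Agent.SwGap.Avg

/-! Spectral step: for a symmetric positive operator `T` with `c ⟨F,TF⟩ ≤ ‖TF‖²` one has
`c ‖F‖² ≤ ⟨F,TF⟩` on the orthogonal complement of the kernel. -/

set_option autoImplicit false
open Finset

namespace Crest.Agent.SwGap

variable {Ω : Type*} [Fintype Ω]

theorem spectral_fun (T : (Ω → ℝ) →ₗ[ℝ] (Ω → ℝ))
    (hsymm : ∀ F G, ip (T F) G = ip F (T G)) (hpos : ∀ F, 0 ≤ ip F (T F))
    {c : ℝ} (hgap : ∀ F, c * ip F (T F) ≤ ip (T F) (T F))
    (F : Ω → ℝ) (hF : ∀ K, T K = 0 → ip K F = 0) :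
    c * ip F F ≤ ip F (T F) := by
  classical
  -- `F` is in the range of `T`
  have hrange : ∃ y, T y = F := by
    let e : EuclideanSpace ℝ Ω ≃ₗ[ℝ] (Ω → ℝ) := (WithLp.linearEquiv 2 ℝ (Ω → ℝ))
    let S : EuclideanSpace ℝ Ω →ₗ[ℝ] EuclideanSpace ℝ Ω := e.symm.toLinearMap ∘ₗ T ∘ₗ e.toLinearMap
    have hin : ∀ x y : EuclideanSpace ℝ Ω, inner ℝ x y = ip (e x) (e y) := by
      intro x y
      rw [PiLp.inner_apply]
      unfold ip
      refine sum_congr rfl (fun i _ => ?_)
      simp [e, mul_comm]
    have hS : S.IsSymmetric := by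
      intro x y
      rw [hin, hin]
      simpa [S] using hsymm (e x) (e y)
    have h1 : (LinearMap.range S)ᗮ = LinearMap.ker S := hS.orthogonal_range
    have h2 : e.symm F ∈ (LinearMap.range S)ᗮᗮ := by
      rw [h1, Submodule.mem_orthogonal]
      intro u hu
      rw [hin]
      have : T (e u) = 0 := by
        have := LinearMap.mem_ker.mp hu
        have h3 : e.symm (T (e u)) = 0 := this
        simpa using h3
      simpa using hF (e u) this
    rw [Submodule.orthogonal_orthogonal] at h2
    obtain ⟨y, hy⟩ := h2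
    refine ⟨e y, ?_⟩
    have h3 : e.symm (T (e y)) = e.symm F := hy
    exact e.symm.injective h3
  obtain ⟨y, hy⟩ := hrange
  -- Cauchy-Schwarz for the form `⟨x, T z⟩`
  have hadd : ∀ A B C : Ω → ℝ, ip (A + B) C = ip A C + ip B C := by
    intro A B C; unfold ip; rw [← sum_add_distrib]; exact sum_congr rfl (fun i _ => by simp; ring)
  have hadd' : ∀ A B C : Ω → ℝ, ip A (B + C) = ip A B + ip A C := by
    intro A B C; unfold ip; rw [← sum_add_distrib]; exact sum_congr rfl (fun i _ => by simp; ring)
  have hsm : ∀ (t : ℝ) (A B : Ω → ℝ), ip (t • A) B = t * ip A B := by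
    intro t A B; unfold ip; rw [mul_sum]; exact sum_congr rfl (fun i _ => by simp; ring)
  have hsm' : ∀ (t : ℝ) (A B : Ω → ℝ), ip A (t • B) = t * ip A B := by
    intro t A B; unfold ip; rw [mul_sum]; exact sum_congr rfl (fun i _ => by simp; ring)
  have hcomm : ∀ A B : Ω → ℝ, ip A B = ip B A := by
    intro A B; unfold ip; exact sum_congr rfl (fun i _ => by ring)
  set a := ip F (T F) with ha
  set b := ip F F with hb
  set g := ip y (T y) with hg
  have hb' : ip y (T F) = b := by
    rw [← hsymm, hy]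
  have hquad : ∀ t : ℝ, 0 ≤ a * t ^ 2 + 2 * b * t + g := by
    intro t
    have := hpos (t • F + y)
    have h1 : ip (t • F + y) (T (t • F + y)) = a * t ^ 2 + 2 * b * t + g := by
      rw [map_add, map_smul, hadd, hadd', hadd', hsm, hsm', hsm, hsm', hb', hy]
      rw [← ha, ← hb, hg, hy]; ring
    rw [h1] at this; exact this
  have hgapy : c * g ≤ b := by
    have := hgap y
    rw [hy] at this
    rw [hg, hy]; exact this
  have ha0 : 0 ≤ a := hpos F
  have hb0 : 0 ≤ b := by rw [hb]; exact sum_nonneg (fun i _ => mul_self_nonneg _)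
  have hg0 : 0 ≤ g := hpos y
  -- discriminant
  have hdisc : b ^ 2 ≤ a * g := by
    by_cases ha1 : a = 0
    · -- then b = 0
      have : b = 0 := by
        by_contra hne
        have hbp : 0 < b := lt_of_le_of_ne hb0 (Ne.symm hne)
        have := hquad (-(g + 1) / (2 * b))
        rw [ha1] at this
        have h2 : 2 * b * (-(g + 1) / (2 * b)) = -(g + 1) := by field_simp
        linarith
      rw [this, ha1]; simp
    · have hap : 0 < a := lt_of_le_of_ne ha0 (Ne.symm ha1)
      have := hquad (-b / a)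
      have h2 : a * (-b / a) ^ 2 + 2 * b * (-b / a) + g = g - b ^ 2 / a := by field_simp; ring
      rw [h2] at this
      have h3 : b ^ 2 / a ≤ g := by linarith
      rw [div_le_iff₀ hap] at h3; linarith
  by_cases hb1 : b = 0
  · rw [hb1]; simpa using ha0
  · have hbp : 0 < b := lt_of_le_of_ne hb0 (Ne.symm hb1)
    by_contra hlt
    push Not at hlt
    -- a < c b
    have hcp : 0 < c := by
      by_contra hc; push Not at hc
      have : c * b ≤ 0 := mul_nonpos_of_nonpos_of_nonneg hc hbp.le
      linarith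
    have h1 : c * b ^ 2 ≤ a * (c * g) := by nlinarith
    have h2 : a * (c * g) ≤ a * b := mul_le_mul_of_nonneg_left hgapy ha0
    have h3 : c * b ^ 2 ≤ a * b := h1.trans h2
    have h4 : c * b ≤ a := by
      have : (c * b) * b ≤ a * b := by nlinarith
      exact le_of_mul_le_mul_right this hbp
    linarith

end Crest.Agent.SwGap
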